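import Vale.Agent.P166.NW.Gain.Pair

/-! Two replicas of a cascade; uniform convergence of truncated overlap means. -/

noncomputable section

open MeasureTheory ProbabilityTheory Finset Filter
open scoped BigOperators Topology

namespace Vale.Agent.P166.NW.Gain

open Vale.Agent.P157 Vale.Agent.P157.Parisi Vale.Agent.P157.Parisi.Up
open Vale.Agent.P168 (Shape shapeProb extProb shapeInit)
open Vale.Agent.P168.Cascade (Exps reps kids coef attach IsTree)

lemma treeExp_two (ξ : Path) (F : ℝ → ℝ) :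
    ξ.treeExp 2 (fun T => F (T 0 1)) = ∑ p, weight ξ.m p * F (ξ.q p) := by
  have hg : ∀ v : Shape ξ.r 2, (fun T : Fin 2 → Fin 2 → ℝ => F (T 0 1)) (ξ.gram v) =
      F (ξ.q (v 0 1)) := fun v => by simp [Path.gram]
  simp only [Path.treeExp, hg]
  rw [← Finset.sum_fiberwise Finset.univ (shapeInit (r := ξ.r) (n := 1)),
    Finset.sum_eq_single (one ξ.r)]
  · rw [Finset.sum_congr (g := fun v => extProb ξ.m v * F (ξ.q (v 0 1))) rfl
      fun v hv => by
        show shapeProb ξ.m 1 (shapeInit v) * extProb ξ.m v * _ = _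
        rw [(Finset.mem_filter.1 hv).2, shapeProb_one, if_pos rfl, one_mul],
      (isTree_one ξ.r).sum_extend one_ne_zero]
    refine Finset.sum_congr rfl fun p _ => ?_
    have hreps : reps (one ξ.r) p.val = Finset.univ :=
      Finset.filter_true_of_mem fun a _ => Subsingleton.elim _ _
    rw [hreps, Fin.sum_univ_one]
    have hk : kids (one ξ.r) p.val 0 = 1 := by
      refine le_antisymm ((Finset.card_image_le).trans ((Finset.card_le_univ _).trans_eq (by simp)))
        (Finset.card_pos.2 ?_)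
      exact Finset.Nonempty.image ⟨0, (isTree_one ξ.r).self_mem _ _⟩ _
    rw [show attach (one ξ.r) p 0 0 1 = p from sh_apply p]
    simp only [coef, hk, Nat.cast_one, one_mul, div_one, weight_eq]
  · intro v _ hv
    refine Finset.sum_eq_zero fun v' hv' => ?_
    show shapeProb ξ.m 1 (shapeInit v') * extProb ξ.m v' * _ = _
    rw [(Finset.mem_filter.1 hv').2, shapeProb_one, if_neg hv, zero_mul, zero_mul]
  · simp

/-- Pointwise convergence of two families of truncated means is uniform in the level. -/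
lemma uniform_levels {A B : ℕ → ℝ → ℝ} (hA : ∀ j c c', |A j c - A j c'| ≤ |c - c'|)
    (hB : ∀ j c c', |B j c - B j c'| ≤ |c - c'|)
    (h : ∀ c, Tendsto (fun j => A j c - B j c) atTop (𝓝 0)) {τ : ℝ} (hτ : 0 < τ) :
    ∀ᶠ j in atTop, ∀ c ∈ Set.Icc (0 : ℝ) 1, A j c ≤ B j c + τ := by
  obtain ⟨K, hK⟩ := exists_nat_gt (3 / τ)
  have hK0 : (0 : ℝ) < K := (div_pos three_pos hτ).trans hK
  have hev : ∀ i : Fin (K + 1), ∀ᶠ j in atTop, A j ((i.val : ℝ) / K) - B j ((i.val : ℝ) / K) ≤ τ / 3 :=
    fun i => (h _).eventually (eventually_le_nhds (by positivity))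
  filter_upwards [eventually_all.2 hev] with j hj c hc
  set i : Fin (K + 1) := ⟨⌊c * K⌋₊, Nat.lt_succ_of_le (Nat.floor_le_of_le (by nlinarith [hc.2]))⟩
  have h1 : (i.val : ℝ) ≤ c * K := Nat.floor_le (mul_nonneg hc.1 hK0.le)
  have h2 : c * K < (i.val : ℝ) + 1 := Nat.lt_floor_add_one _
  have hd : |c - (i.val : ℝ) / K| ≤ τ / 3 := by
    have h3 : (i.val : ℝ) / K ≤ c := (div_le_iff₀ hK0).2 h1
    rw [abs_of_nonneg (sub_nonneg.2 h3), sub_le_iff_le_add, ← sub_le_iff_le_add',
      le_div_iff₀ hK0]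
    have h4 : 3 ≤ τ * K := by
      have := (div_lt_iff₀ hτ).1 hK
      linarith
    nlinarith
  have := abs_le.1 ((hA j c ((i.val : ℝ) / K)).trans hd)
  have := abs_le.1 ((hB j c ((i.val : ℝ) / K)).trans hd)
  linarith [hj i]

lemma abs_max_sub_le (x c c' : ℝ) : |max (x - c) 0 - max (x - c') 0| ≤ |c - c'| := by
  refine (abs_max_sub_max_le_abs _ _ _).trans ?_
  rw [show x - c - (x - c') = c' - c by ring, abs_sub_comm]

end Vale.Agent.P166.NW.Gain
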