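import Vale.Agent.P166.NW.Gain.Family
import Vale.Agent.P166.NW.Gain.Tree
import Vale.Agent.P157.Parisi.Main.Lower

/-! The averaged gain of a slot, from the ultrametric limit of the states of the slot family. -/

noncomputable section

open MeasureTheory ProbabilityTheory Filter
open scoped BigOperators ENNReal Topology

namespace Vale.Agent.P166.NW.Gain

open Vale.Agent.P157 Vale.Agent.P157.Parisi Vale.Agent.P157.Parisi.Up
open Vale.Agent.P168.Cascade (Exps Bdd)

theorem gain_of (hC : CascGGStmt) (hD : CascStateStmt) (hV : SlotVarStmt) (hE : TreeApproxStmt)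
    (hL : LogStmt) : GainStmt := by
  intro α A a f hα ha hf ξ s hs hs0 B hB η hη
  have hm : Exps ξ.m := ⟨ξ.isPath.pos, ξ.isPath.lt_one, ξ.isPath.strictMono⟩
  obtain ⟨K, hK⟩ := hV α A a f hα ha hf ξ s hs hs0
  obtain ⟨rate, hrate, hGG⟩ := hC ξ.r ξ.m hm K
  by_contra hcon
  rw [not_eventually] at hcon
  obtain ⟨Ns, hNs, hbad⟩ := extraction_of_frequently_atTop hcon
  simp only [not_forall, not_le] at hbad
  choose J Kf Ls hjkl hpar hgain using hbad
  have hNt : Tendsto Ns atTop atTop := hNs.tendsto_atTop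
  have hN : ∀ i, 0 < Ns i := fun i => (hpar i).1
  set ε : ℕ → ℝ := fun i => α * Ns i / Ls i
  have hεm : ∀ i, 0 ≤ ε i ∧ ε i ≤ 1 := fun i => ⟨by positivity, (hpar i).2.2.1⟩
  set ρ : Fin (ξ.r + 1) → ℝ := fun p => α * s p
  have hlawp : ∀ i, IsProbabilityMeasure (slotLaw (Ns i) (J i) (Kf i) (ε i)) := fun i =>
    slotLaw_prob (hεm i).1 (hεm i).2
  set W := fun i (x : Fin (Ns i) → ℝ) =>
    pertW (L := Ns i) (slotW (N := Ns i) (j := J i) (k := Kf i) f (1 / (Ls i : ℝ)) a ρ)
      (scale (Ns i)) x with hWdef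
  have hwb : ∀ i (d : SlotDis (Ns i) (J i) (Kf i)),
      WBdd (slotC A (1 / (Ls i : ℝ)) a ρ (Ns i) (J i) (Kf i)) (slotW f (1 / (Ls i : ℝ)) a ρ d) :=
    fun i d => wbdd_slotW hf ha ρ d
  have hWm : ∀ i x, MeasW (W i x) := fun i x => measW_pertW (measW_slotW hf _ a ρ) _ x
  have hWp : ∀ i, MeasW fun z : (Fin (Ns i) → ℝ) ×
      (SlotDis (Ns i) (J i) (Kf i) × (PertIdx (Ns i) (Ns i) → ℝ)) => W i z.1 z.2 := fun i =>
    measW_pertW_param (measW_slotW hf _ a ρ) _
  have hWb : ∀ i x e, ∃ C, WBdd C (W i x e) := fun i x e => ⟨_, wbdd_pertW (hwb i) _ x e⟩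
  -- the gain
  set S0 := s (Fin.last ξ.r)
  set g := fun i (x : Fin (Ns i) → ℝ)
      (e : SlotDis (Ns i) (J i) (Kf i) × (PertIdx (Ns i) (Ns i) → ℝ)) =>
    patInc (slotMarks (Ns i) (Kf i)) ξ.m f (W i x e) +
      1 / 2 * fieldPair (slotMarks (Ns i) (Kf i)) ξ.m s (W i x e) with hg
  have hpairb : ∀ i x e, |fieldPair (slotMarks (Ns i) (Kf i)) ξ.m s (W i x e)| ≤ S0 := by
    intro i x e
    obtain ⟨C, hC'⟩ := hWb i x e
    refine (Finset.abs_sum_le_sum_abs _ _).trans ?_
    calc ∑ p, |weight ξ.m p * (s p * bVal (slotMarks (Ns i) (Kf i)) ξ.m (W i x e) p)|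
        ≤ ∑ p, weight ξ.m p * S0 := Finset.sum_le_sum fun p _ => by
          rw [abs_mul, abs_of_nonneg (weight_nonneg hm p), abs_mul,
            abs_of_nonneg (hs0.trans (hs (Fin.zero_le p)))]
          refine mul_le_mul_of_nonneg_left ?_ (weight_nonneg hm p)
          exact (mul_le_of_le_one_right (hs0.trans (hs (Fin.zero_le p)))
            (abs_bVal_le _ hm hC' p)).trans (hs (Fin.le_last p))
      _ = S0 := by rw [← Finset.sum_mul, sum_weight, one_mul]
  have hincb : ∀ i x e, |patInc (slotMarks (Ns i) (Kf i)) ξ.m f (W i x e)| ≤ A := fun i x e => by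
    obtain ⟨C, hC'⟩ := hWb i x e
    exact abs_patInc_le hD hf (hN i) hm _ hC'
  set Kg := A + S0
  have hgb : ∀ i x e, |g i x e| ≤ Kg := fun i x e => by
    obtain ⟨a1, a2⟩ := abs_le.1 (hincb i x e)
    obtain ⟨b1, b2⟩ := abs_le.1 (hpairb i x e)
    have : 0 ≤ S0 := (abs_nonneg _).trans (hpairb i x e)
    exact abs_le.2 ⟨by simp only [hg, Kg]; linarith, by simp only [hg, Kg]; linarith⟩
  set fam := fun i => famLaw (slotLaw (Ns i) (J i) (Kf i) (ε i)) (Ns i) (Ns i)
  have hfam : ∀ i, IsProbabilityMeasure (fam i) := fun i => by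
    have := hlawp i; simp only [fam, famLaw]; infer_instance
  set G := fun i (x : Fin (Ns i) → ℝ) => ∫ e, g i x e ∂fam i
  have hgm : ∀ i, Measurable fun z : (Fin (Ns i) → ℝ) ×
      (SlotDis (Ns i) (J i) (Kf i) × (PertIdx (Ns i) (Ns i) → ℝ)) => g i z.1 z.2 := fun i =>
    (measurable_patInc hf _ ξ.m (hWp i)).add
      ((measurable_fieldPair (slotMarks (Ns i) (Kf i)) (m := ξ.m) (hWp i) s).const_mul _)
  have hGm : ∀ i, Measurable (G i) := fun i => by
    have := hfam i
    exact ((hgm i).stronglyMeasurable.integral_prod_right' (ν := fam i)).measurable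
  have hGb : ∀ i x, |G i x| ≤ Kg := fun i x => by
    have := hfam i
    simpa using norm_integral_le_of_norm_le_const (μ := fam i) (f := g i x)
      (Eventually.of_forall fun e => hgb i x e)
  have hgain' : ∀ i, B + η < ∫ x, G i x ∂xLaw (Ns i) := hgain
  -- the identities
  have hGG' := fun i => by
    have := hlawp i
    exact hGG (Ns i) (hN i) (Fin (Kf i) → Fin (Ns i) → ℝ) (slotMarks (Ns i) (Kf i))
      (SlotDis (Ns i) (J i) (Kf i)) (slotLaw (Ns i) (J i) (Kf i) (ε i))
      (slotW f (1 / (Ls i : ℝ)) a ρ) _ (measW_slotW hf _ a ρ) (hwb i)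
      fun x hx => hK (Ns i) (J i) (Kf i) (Ls i) (hjkl i) (hpar i) x hx
  choose δ hδm hδb hδi hδgg using hGG'
  set e : (i : ℕ) → (Fin (Ns i) → ℝ) → ℝ := fun i x =>
    ∑ p ∈ Finset.range i, (1 / 2) ^ p * δ i p x
  set E : ℕ → ℝ := fun i => ∫ x, e i x ∂xLaw (Ns i)
  have hδint : ∀ i p, Integrable (δ i p) (xLaw (Ns i)) := fun i p =>
    Integrable.of_bound (hδm i p).aestronglyMeasurable 2 (Eventually.of_forall fun x => by
      rw [Real.norm_eq_abs, abs_of_nonneg (hδb i p x).1]; exact (hδb i p x).2)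
  have he0 : ∀ i x, 0 ≤ e i x := fun i x =>
    Finset.sum_nonneg fun p _ => mul_nonneg (by positivity) (hδb i p x).1
  have hei : ∀ i, Integrable (e i) (xLaw (Ns i)) := fun i =>
    integrable_finsetSum _ fun p _ => (hδint i p).const_mul _
  have hE0 : ∀ i, 0 ≤ E i := fun i => integral_nonneg (he0 i)
  have hElim : Tendsto E atTop (𝓝 0) := by
    have h := tendsto_tsum_of_dominated_convergence
      (f := fun i p => if p < i then (1 / 2 : ℝ) ^ p * ∫ x, δ i p x ∂xLaw (Ns i) else 0)
      (g := fun _ => (0 : ℝ)) (bound := fun p => (1 / 2 : ℝ) ^ p * 2)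
      ((summable_geometric_of_lt_one (by norm_num) (by norm_num)).mul_right 2)
      (fun p => by
        refine squeeze_zero_norm (a := fun i => (1 / 2 : ℝ) ^ p * |rate (Ns i) p|) (fun i => ?_)
          (by simpa using (((hrate p).comp hNt).abs.const_mul ((1 / 2 : ℝ) ^ p)))
        have h0 : 0 ≤ ∫ x, δ i p x ∂xLaw (Ns i) := integral_nonneg fun x => (hδb i p x).1
        by_cases hp : p < i
        · simp only [if_pos hp, Real.norm_eq_abs, abs_mul, abs_of_nonneg h0,
            abs_of_nonneg (by positivity : (0 : ℝ) ≤ (1 / 2) ^ p)]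
          exact mul_le_mul_of_nonneg_left ((hδi i p).trans (le_abs_self _)) (by positivity)
        · simp only [if_neg hp, norm_zero]
          positivity)
      (Eventually.of_forall fun i p => by
        split_ifs
        · rw [Real.norm_eq_abs, abs_mul, abs_of_nonneg (by positivity : (0 : ℝ) ≤ (1 / 2) ^ p)]
          refine mul_le_mul_of_nonneg_left ?_ (by positivity)
          simpa using norm_integral_le_of_norm_le_const (μ := xLaw (Ns i))
            (Eventually.of_forall fun x => show ‖δ i p x‖ ≤ 2 from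
              abs_le.2 ⟨by linarith [(hδb i p x).1], (hδb i p x).2⟩)
        · simp)
    rw [tsum_zero] at h
    refine h.congr fun i => ?_
    rw [tsum_eq_sum (s := Finset.range i) fun p hp => if_neg (by simpa using hp)]
    simp only [E, e]
    rw [integral_finsetSum _ fun p _ => (hδint i p).const_mul _]
    exact Finset.sum_congr rfl fun p hp => by
      rw [if_pos (by simpa using hp), integral_const_mul]
  -- good parameters
  set R : ℕ → ℝ := fun i => 1 / Real.sqrt (E i + 1 / ((i : ℝ) + 1))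
  have hpos : ∀ i : ℕ, 0 < E i + 1 / ((i : ℝ) + 1) := fun i =>
    add_pos_of_nonneg_of_pos (hE0 i) (by positivity)
  have hR : ∀ i, 0 < R i := fun i => one_div_pos.2 (Real.sqrt_pos.2 (hpos i))
  have hREz : Tendsto (fun i => Real.sqrt (E i + 1 / ((i : ℝ) + 1))) atTop (𝓝 0) := by
    simpa using (hElim.add (tendsto_one_div_add_atTop_nhds_zero_nat)).sqrt
  have hRE : Tendsto (fun i => R i * E i) atTop (𝓝 0) := by
    refine squeeze_zero (fun i => mul_nonneg (hR i).le (hE0 i)) (fun i => ?_) hREz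
    simp only [R]
    rw [div_mul_eq_mul_div, one_mul, div_le_iff₀ (Real.sqrt_pos.2 (hpos i)),
      Real.mul_self_sqrt (hpos i).le]
    have : (0 : ℝ) ≤ 1 / ((i : ℝ) + 1) := by positivity
    linarith
  have hsel : ∀ i, ∃ x : Fin (Ns i) → ℝ, (∀ l, x l ∈ Set.Icc (1 : ℝ) 2) ∧
      ∫ y, (G i y - R i * e i y) ∂xLaw (Ns i) ≤ G i x - R i * e i x := by
    intro i
    have hint : Integrable (fun y => R i * e i y - G i y) (xLaw (Ns i)) :=
      ((hei i).const_mul _).sub (Integrable.of_bound (hGm i).aestronglyMeasurable Kg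
        (Eventually.of_forall fun x => hGb i x))
    obtain ⟨x, hx1, hx2⟩ := exists_notMem_null_le_integral hint (ae_iff.1 (Main.ae_xLaw (Ns i)))
    refine ⟨x, not_not.1 hx1, ?_⟩
    have e' : ∫ y, (G i y - R i * e i y) ∂xLaw (Ns i) =
        -∫ y, (R i * e i y - G i y) ∂xLaw (Ns i) := by
      rw [← integral_neg]; simp
    rw [e']
    linarith
  choose x hx hsel using hsel
  have hlow : ∀ i, B + η - R i * E i + R i * e i (x i) ≤ G i (x i) := fun i => by
    have h := hsel i
    rw [integral_sub (Integrable.of_bound (hGm i).aestronglyMeasurable Kg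
        (Eventually.of_forall fun y => hGb i y)) ((hei i).const_mul _), integral_const_mul] at h
    have := (hgain' i).le
    simp only [E] at *
    linarith
  have hez : Tendsto (fun i => e i (x i)) atTop (𝓝 0) := by
    set C := |B| + |η| + Kg + 1
    refine squeeze_zero' (g := fun i => C * Real.sqrt (E i + 1 / ((i : ℝ) + 1)))
      (Eventually.of_forall fun i => he0 i _) ?_ (by simpa using hREz.const_mul C)
    filter_upwards [(Metric.tendsto_nhds.1 hRE) 1 one_pos] with i hi
    rw [Real.dist_eq, sub_zero] at hi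
    have h1 : R i * e i (x i) ≤ C := by
      linarith [hlow i, (abs_le.1 (hGb i (x i))).2, (abs_lt.1 hi).2, neg_abs_le B, neg_abs_le η]
    simp only [R] at h1
    rwa [div_mul_eq_mul_div, one_mul, div_le_iff₀ (Real.sqrt_pos.2 (hpos i))] at h1
  set dl : ℕ → ℕ → ℝ := fun i p => δ i p (x i)
  have hdl : ∀ p, Tendsto (fun i => dl i p) atTop (𝓝 0) := fun p => by
    refine squeeze_zero' (Eventually.of_forall fun i => (hδb _ _ _).1)
      (g := fun i => 2 ^ p * e i (x i)) ?_ (by simpa using hez.const_mul ((2 : ℝ) ^ p))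
    filter_upwards [eventually_gt_atTop p] with i hi
    have h := Finset.single_le_sum (f := fun l => (1 / 2 : ℝ) ^ l * δ i l (x i))
      (fun l _ => mul_nonneg (by positivity) (hδb _ _ _).1) (Finset.mem_range.2 hi)
    calc dl i p = 2 ^ p * ((1 / 2 : ℝ) ^ p * δ i p (x i)) := by
          rw [← mul_assoc, ← mul_pow]; norm_num [dl]
      _ ≤ _ := mul_le_mul_of_nonneg_left h (by positivity)
  -- the states
  have hst := fun i => by
    have := hfam i
    exact hD (Ns i) (hN i) ξ.r ξ.m hm (Fin (Kf i) → Fin (Ns i) → ℝ) (slotMarks (Ns i) (Kf i))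
      (SlotDis (Ns i) (J i) (Kf i) × (PertIdx (Ns i) (Ns i) → ℝ)) (fam i) (W i (x i))
      (hWm i _) (hWb i _)
  choose S hS hrep hlog using hst
  obtain ⟨φ, ξ', hφ, hap⟩ := hE Ns S hNt hS dl hdl fun i p n F hF => by
    rw [hrep i (n + 1), hrep i n, hrep i 1]
    simp only [hrep i n]
    exact hδgg i p (x i) (hx i) n F hF
  -- the limit of the state
  set M := fun i => Ns (φ i)
  have hpat : Tendsto (fun i => (S (φ i)).logMean f 1 - patValue f (ξ' i).m (ξ' i).q) atTop
      (𝓝 0) := by
    simpa using hL A f hf M (fun i => S (φ i)) ξ' (fun i => hN _) (fun i => hS _) hap 1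
  have hrep2 : ∀ i (F : Cube (Ns i) → Cube (Ns i) → ℝ),
      (S i).repMean 2 (fun σ => F (σ 0) (σ 1)) = ∫ d,
        nRep (slotMarks (Ns i) (Kf i)) ξ.m (W i (x i) d) 2 (fun σ => F (σ 0) (σ 1)) ∂fam i :=
    fun i F => hrep i 1 _
  have hov : Tendsto (fun i => (S (φ i)).repMean 2 (fun σ => overlap (σ 0) (σ 1)) -
      ∑ p, weight (ξ' i).m p * (ξ' i).q p) atTop (𝓝 0) := by
    have h := hap 2 (fun T => T 0 1) (by fun_prop)
    simp only [treeExp_two _ fun q => q] at h
    exact h
  set trA := fun i c => (S (φ i)).repMean 2 (fun σ => max (overlap (σ 0) (σ 1) - c) 0)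
  set trB := fun i c => ∑ p, weight (ξ' i).m p * max ((ξ' i).q p - c) 0
  have htr : ∀ τ > 0, ∀ᶠ i in atTop, ∀ c ∈ Set.Icc (0 : ℝ) 1, trA i c ≤ trB i c + τ := by
    intro τ hτ
    refine uniform_levels (fun i c c' => ?_) (fun i c c' => ?_) (fun c => ?_) hτ
    · have := hS (φ i)
      have := this.prob
      have hint : ∀ c, Integrable (fun ω => ∑ σ : Fin 2 → Cube (M i),
          (∏ l, (S (φ i)).w ω (σ l)) * max (overlap (σ 0) (σ 1) - c) 0) (S (φ i)).law := fun c =>
        integrable_finsetSum _ fun σ _ => (Integrable.of_bound (Finset.measurable_prod _ fun l _ =>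
          (hS (φ i)).meas (σ l)).aestronglyMeasurable 1 (Eventually.of_forall fun ω => by
            rw [Real.norm_eq_abs, abs_of_nonneg (Finset.prod_nonneg fun l _ => (hS (φ i)).nonneg ω _)]
            exact Finset.prod_le_one (fun l _ => (hS (φ i)).nonneg ω _) fun l _ =>
              (Finset.single_le_sum (fun τ _ => (hS (φ i)).nonneg ω τ) (Finset.mem_univ _)).trans
                ((hS (φ i)).sum_one ω).le)).mul_const _
      simp only [trA, State.repMean]
      rw [← integral_sub (hint c) (hint c'), ← Real.norm_eq_abs]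
      refine le_trans (norm_integral_le_of_norm_le_const (μ := (S (φ i)).law) (C := |c - c'|)
        (Eventually.of_forall fun ω => ?_)) (le_of_eq (by rw [probReal_univ, mul_one]))
      rw [Real.norm_eq_abs, ← Finset.sum_sub_distrib]
      refine (Finset.abs_sum_le_sum_abs _ _).trans ?_
      calc ∑ σ : Fin 2 → Cube (M i), |(∏ l, (S (φ i)).w ω (σ l)) * max (overlap (σ 0) (σ 1) - c) 0 -
            (∏ l, (S (φ i)).w ω (σ l)) * max (overlap (σ 0) (σ 1) - c') 0|
          ≤ ∑ σ : Fin 2 → Cube (M i), (∏ l, (S (φ i)).w ω (σ l)) * |c - c'| :=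
            Finset.sum_le_sum fun σ _ => by
              have h0 : 0 ≤ ∏ l, (S (φ i)).w ω (σ l) :=
                Finset.prod_nonneg fun l _ => (hS (φ i)).nonneg ω _
              rw [← mul_sub, abs_mul, abs_of_nonneg h0]
              exact mul_le_mul_of_nonneg_left (abs_max_sub_le _ _ _) h0
        _ = |c - c'| := by
            rw [← Finset.sum_mul, ← Fintype.prod_sum]
            have h1 : ∑ j : Cube (M i), (S (φ i)).w ω j = 1 := (hS (φ i)).sum_one ω
            simp [h1]
    · have hm' : Exps (ξ' i).m :=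
        ⟨(ξ' i).isPath.pos, (ξ' i).isPath.lt_one, (ξ' i).isPath.strictMono⟩
      simp only [trB, ← Finset.sum_sub_distrib, ← mul_sub]
      refine (Finset.abs_sum_le_sum_abs _ _).trans ?_
      calc ∑ p, |weight (ξ' i).m p * (max ((ξ' i).q p - c) 0 - max ((ξ' i).q p - c') 0)|
          ≤ ∑ p, weight (ξ' i).m p * |c - c'| := Finset.sum_le_sum fun p _ => by
            rw [abs_mul, abs_of_nonneg (weight_nonneg hm' p)]
            exact mul_le_mul_of_nonneg_left (abs_max_sub_le _ _ _) (weight_nonneg hm' p)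
        _ = |c - c'| := by rw [← Finset.sum_mul, sum_weight, one_mul]
    · have h := hap 2 (fun T => max (T 0 1 - c) 0) (by fun_prop)
      simp only [treeExp_two _ fun q => max (q - c) 0] at h
      exact h
  -- the contradiction
  set τ := η / (4 * (S0 + 1)) with hτ
  have hS00 : 0 ≤ S0 := hs0.trans (hs (Fin.zero_le _))
  have hτ0 : 0 < τ := by positivity
  obtain ⟨i, h1, h2, h3, h4⟩ := ((((Metric.tendsto_nhds.1 hpat) (η / 8) (by linarith)).and
    (((Metric.tendsto_nhds.1 hov) τ hτ0).and ((htr τ hτ0).and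
      ((hφ.tendsto_atTop.eventually ((Metric.tendsto_nhds.1 hRE) (η / 8) (by linarith)))))))).exists
  rw [Real.dist_eq, sub_zero] at h1 h2 h4
  set n := φ i
  have := hfam n
  set E2 := ∫ d, fieldPair (slotMarks (Ns n) (Kf n)) ξ.m s (W n (x n) d) ∂fam n
  have hipair : Integrable (fun d => fieldPair (slotMarks (Ns n) (Kf n)) ξ.m s (W n (x n) d))
      (fam n) := Integrable.of_bound (measurable_fieldPair _ (hWm n _) s).aestronglyMeasurable S0
    (Eventually.of_forall fun d => hpairb n _ d)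
  have hiinc : Integrable (fun d => patInc (slotMarks (Ns n) (Kf n)) ξ.m f (W n (x n) d))
      (fam n) := Integrable.of_bound (measurable_patInc hf _ ξ.m (hWm n _)).aestronglyMeasurable A
    (Eventually.of_forall fun d => hincb n _ d)
  have hGn : G n (x n) = (S n).logMean f 1 + 1 / 2 * E2 := by
    simp only [G, hg]
    rw [integral_add hiinc (hipair.const_mul _), integral_const_mul, hlog n f A hf]
  have hi2 : ∀ F : Cube (Ns n) → Cube (Ns n) → ℝ, ∀ Bd, (∀ σ τ, |F σ τ| ≤ Bd) →
      Integrable (fun d => nRep (slotMarks (Ns n) (Kf n)) ξ.m (W n (x n) d) 2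
        (fun σ => F (σ 0) (σ 1))) (fam n) := fun F Bd hF =>
    Integrable.of_bound (measurable_nRep _ (hWm n _) 2 _).aestronglyMeasurable Bd
      (Eventually.of_forall fun d => by
        obtain ⟨C, hC'⟩ := hWb n (x n) d
        exact abs_nRep_two_le _ hm hC' F hF)
  have hov1 : ∀ σ τ : Cube (Ns n), |overlap σ τ| ≤ 1 := fun σ τ => by
    rw [Vale.Agent.P157.Parisi.overlap, abs_div, Nat.abs_cast,
      div_le_one (by exact_mod_cast hN n)]
    refine (Finset.abs_sum_le_sum_abs _ _).trans (le_of_eq ?_)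
    simp [abs_mul, Main.abs_sv]
  have hov2 : ∀ c ∈ Set.Icc (0 : ℝ) 1, ∀ σ τ : Cube (Ns n), |max (overlap σ τ - c) 0| ≤ 1 :=
    fun c hc σ τ => by
      rw [abs_of_nonneg (le_max_right _ _)]
      exact max_le (by linarith [(abs_le.1 (hov1 σ τ)).2, hc.1]) zero_le_one
  have hb : PairBound ξ (ξ' i) s (E2 - τ * (S0 + 1)) := by
    intro c hc
    have hr1 := hrep2 n overlap
    have hup : E2 ≤ s 0 * (S n).repMean 2 (fun σ => overlap (σ 0) (σ 1)) +
        ∑ l : Fin ξ.r, gap s l * (c l * (1 - ξ.m l) + trA i (c l)) := by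
      simp only [trA]
      rw [hr1]
      have hr2 : ∀ l, (S n).repMean 2 (fun σ => max (overlap (σ 0) (σ 1) - c l) 0) =
          ∫ d, nRep (slotMarks (Ns n) (Kf n)) ξ.m (W n (x n) d) 2
            (fun σ => max (overlap (σ 0) (σ 1) - c l) 0) ∂fam n :=
        fun l => hrep2 n fun σ τ => max (overlap σ τ - c l) 0
      rw [Finset.sum_congr rfl fun l _ => congrArg (fun z => gap s l * (c l * (1 - ξ.m l) + z))
        (hr2 l)]
      have e1 : ∫ d, (s 0 * nRep (slotMarks (Ns n) (Kf n)) ξ.m (W n (x n) d) 2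
            (fun σ => overlap (σ 0) (σ 1)) + ∑ l : Fin ξ.r, gap s l * (c l * (1 - ξ.m l) +
            nRep (slotMarks (Ns n) (Kf n)) ξ.m (W n (x n) d) 2
              (fun σ => max (overlap (σ 0) (σ 1) - c l) 0))) ∂fam n =
          s 0 * ∫ d, nRep (slotMarks (Ns n) (Kf n)) ξ.m (W n (x n) d) 2
            (fun σ => overlap (σ 0) (σ 1)) ∂fam n + ∑ l : Fin ξ.r, gap s l * (c l * (1 - ξ.m l) +
            ∫ d, nRep (slotMarks (Ns n) (Kf n)) ξ.m (W n (x n) d) 2
              (fun σ => max (overlap (σ 0) (σ 1) - c l) 0) ∂fam n) := by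
        have hl : ∀ l : Fin ξ.r, Integrable (fun d => gap s l * (c l * (1 - ξ.m l) +
            nRep (slotMarks (Ns n) (Kf n)) ξ.m (W n (x n) d) 2
              (fun σ => max (overlap (σ 0) (σ 1) - c l) 0))) (fam n) :=
          fun l => ((integrable_const (c l * (1 - ξ.m l))).add
          (hi2 (fun σ τ => max (Vale.Agent.P157.Parisi.overlap σ τ - c l) 0) 1 (hov2 _ (hc l)))).const_mul (gap s l)
        rw [integral_add ((hi2 overlap 1 hov1).const_mul _)
          (integrable_finsetSum _ fun l _ => hl l), integral_const_mul,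
          integral_finsetSum _ fun l _ => hl l]
        congr 1
        refine Finset.sum_congr rfl fun l _ => ?_
        rw [integral_const_mul, integral_add (integrable_const _)
          (hi2 (fun σ τ => max (Vale.Agent.P157.Parisi.overlap σ τ - c l) 0) 1 (hov2 _ (hc l))), integral_const,
          probReal_univ, one_smul]
      rw [← e1]
      refine integral_mono hipair (((hi2 overlap 1 hov1).const_mul _).add
        (integrable_finsetSum _ fun l _ => ((integrable_const (c l * (1 - ξ.m l))).add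
          (hi2 (fun σ τ => max (Vale.Agent.P157.Parisi.overlap σ τ - c l) 0) 1 (hov2 _ (hc l)))).const_mul (gap s l)))
        fun d => ?_
      obtain ⟨C, hC'⟩ := hWb n (x n) d
      exact fieldPair_le _ hm hC' hs c
    have h2' : s 0 * (S n).repMean 2 (fun σ => overlap (σ 0) (σ 1)) ≤
        s 0 * (∑ p, weight (ξ' i).m p * (ξ' i).q p) + s 0 * τ := by
      rw [← mul_add]
      exact mul_le_mul_of_nonneg_left (by linarith [(abs_lt.1 h2).2]) hs0
    have h3' : ∑ l : Fin ξ.r, gap s l * (c l * (1 - ξ.m l) + trA i (c l)) ≤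
        (∑ l : Fin ξ.r, gap s l * (c l * (1 - ξ.m l) + trB i (c l))) + (S0 - s 0) * τ := by
      rw [← telescope s, Finset.sum_mul, ← Finset.sum_add_distrib]
      refine Finset.sum_le_sum fun l _ => ?_
      rw [← mul_add]
      exact mul_le_mul_of_nonneg_left (by linarith [h3 (c l) (hc l)]) (gap_nonneg hs l)
    simp only [gap, trB] at h3' hup ⊢
    nlinarith
  have hfin := hB (ξ' i) _ hb
  have hτS : τ * (S0 + 1) = η / 4 := by rw [hτ]; field_simp
  have := hlow n
  have := mul_nonneg (hR n).le (he0 n (x n))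
  linarith [(abs_lt.1 h1).2, (abs_lt.1 h4).2]

end Vale.Agent.P166.NW.Gain
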