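import Vale.Agent.P166.NW.Gain.Pair
import Vale.Agent.P157.Parisi.Main.Base

/-! Measurability and bounds of the slot family. -/

noncomputable section

open MeasureTheory ProbabilityTheory Filter
open scoped BigOperators ENNReal

namespace Vale.Agent.P166.NW.Gain

open Vale.Agent.P157 Vale.Agent.P157.Parisi Vale.Agent.P157.Parisi.Up
open Vale.Agent.P168.Cascade (Exps Bdd)

variable {r N : ℕ} {f : ℝ → ℝ} {A : ℝ} {j k : ℕ}

lemma bern_prob {ε : ℝ} (h0 : 0 ≤ ε) (h1 : ε ≤ 1) : IsProbabilityMeasure (bern ε) := ⟨by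
  simp only [bern, Measure.add_apply, Measure.smul_apply, measure_univ, smul_eq_mul, mul_one]
  rw [← ENNReal.ofReal_add h0 (sub_nonneg.2 h1), add_sub_cancel, ENNReal.ofReal_one]⟩

lemma slotLaw_prob {ε : ℝ} (h0 : 0 ≤ ε) (h1 : ε ≤ 1) :
    IsProbabilityMeasure (slotLaw N j k ε) := by
  have := bern_prob h0 h1
  unfold slotLaw
  infer_instance

lemma measurable_slotSum (j : ℕ) :
    Measurable fun p : (Fin j → Bool) × (Fin j → ℝ) => ∑ b, if p.1 b then p.2 b else 0 :=
  Finset.measurable_sum _ fun b _ => Measurable.ite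
    (measurableSet_eq_fun ((measurable_pi_apply b).comp measurable_fst) measurable_const)
    ((measurable_pi_apply b).comp measurable_snd) measurable_const

lemma measurable_slotVals (hs : Smooth f A) (σ : Cube N) :
    Measurable fun g : Fin j → Fin N → ℝ => fun b => f (dot (g b) (unitVec σ)) := by
  refine measurable_pi_lambda _ fun b => hs.d0.continuous.measurable.comp ?_
  exact Measurable.comp (g := fun p : (Fin N → ℝ) × (Fin N → ℝ) => dot p.1 p.2)
    (f := fun g : Fin j → Fin N → ℝ => (g b, unitVec σ)) measurable_dot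
    ((measurable_pi_apply b).prodMk measurable_const)

lemma measurable_slotPat (hs : Smooth f A) (σ : Cube N) :
    Measurable fun p : (Fin j → Bool) × (Fin j → Fin N → ℝ) =>
      ((2 : ℝ) ^ N)⁻¹ * Real.exp (∑ b, if p.1 b then f (dot (p.2 b) (unitVec σ)) else 0) := by
  have h3 : Measurable fun p : (Fin j → Bool) × (Fin j → Fin N → ℝ) =>
      (p.1, fun b => f (dot (p.2 b) (unitVec σ))) :=
    measurable_fst.prodMk ((measurable_slotVals hs σ).comp measurable_snd)
  exact (Measurable.comp (g := fun p : (Fin j → Bool) × (Fin j → ℝ) =>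
      ∑ b, if p.1 b then p.2 b else 0)
    (f := fun p : (Fin j → Bool) × (Fin j → Fin N → ℝ) =>
      (p.1, fun b => f (dot (p.2 b) (unitVec σ)))) (measurable_slotSum j) h3).exp.const_mul _

lemma measW_slotW (hs : Smooth f A) (δ a : ℝ) (ρ : Fin (r + 1) → ℝ) :
    MeasW (slotW (N := N) (j := j) (k := k) f δ a ρ) := fun σ =>
  Measurable.mul
    (f := fun z : SlotDis N j k × (Fin r → Fin k → Fin N → ℝ) =>
      ((2 : ℝ) ^ N)⁻¹ * Real.exp (∑ b, if z.1.1.1 b then f (dot (z.1.1.2 b) (unitVec σ)) else 0))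
    (g := fun z => fieldsW δ a ρ z.1.2 σ z.2)
    (Measurable.comp (f := fun z : SlotDis N j k × (Fin r → Fin k → Fin N → ℝ) => z.1.1)
      (measurable_slotPat hs σ) (measurable_fst.comp measurable_fst))
    (Measurable.comp
      (g := fun q : (Fin k → Fin N → ℝ) × (Fin r → Fin k → Fin N → ℝ) => fieldsW δ a ρ q.1 σ q.2)
      (f := fun z : SlotDis N j k × (Fin r → Fin k → Fin N → ℝ) => (z.1.2, z.2))
      (measurable_fieldsW δ a ρ σ) ((measurable_snd.comp measurable_fst).prodMk measurable_snd))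

/-- The bound on the slot weights. -/
def slotC (A δ a : ℝ) (ρ : Fin (r + 1) → ℝ) (N j k : ℕ) : ℝ :=
  2 ^ N * Real.exp (j * A + k * fieldM δ a N ρ)

lemma wbdd_slotW (hs : Smooth f A) {δ a : ℝ} (ha : 0 ≤ a) (ρ : Fin (r + 1) → ℝ)
    (d : SlotDis N j k) : WBdd (slotC A δ a ρ N j k) (slotW f δ a ρ d) := by
  have hA : 0 ≤ A := (abs_nonneg _).trans (hs.b0 0)
  intro σ
  refine ⟨mul_pos (pow_pos two_pos _) (Real.exp_pos _),
    (measW_slotW hs δ a ρ σ).comp (measurable_const.prodMk measurable_id), fun η => ?_⟩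
  have hp : |∑ b, if d.1.1 b then f (dot (d.1.2 b) (unitVec σ)) else 0| ≤ j * A := by
    refine (Finset.abs_sum_le_sum_abs _ _).trans ((Finset.sum_le_sum (g := fun _ => A)
      fun b _ => ?_).trans_eq (by simp))
    split_ifs
    exacts [hs.b0 _, by simpa using hA]
  have hf : |∑ b, fieldX δ a ρ (d.2 b) σ fun p => η p b| ≤ k * fieldM δ a N ρ :=
    (Finset.abs_sum_le_sum_abs _ _).trans ((Finset.sum_le_sum fun b _ =>
      abs_fieldX_le ha ρ (d.2 b) σ _).trans_eq (by simp [fieldM]))
  have e : slotW f δ a ρ d σ η = ((2 : ℝ) ^ N)⁻¹ *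
      Real.exp ((∑ b, if d.1.1 b then f (dot (d.1.2 b) (unitVec σ)) else 0) +
        ∑ b, fieldX δ a ρ (d.2 b) σ fun p => η p b) := by
    rw [slotW, fieldsW, Real.exp_add, mul_assoc]
  rw [e, slotC]
  obtain ⟨p1, p2⟩ := abs_le.1 hp
  obtain ⟨f1, f2⟩ := abs_le.1 hf
  constructor
  · rw [mul_inv, ← Real.exp_neg]
    exact mul_le_mul_of_nonneg_left (Real.exp_le_exp.2 (by linarith)) (by positivity)
  · refine mul_le_mul ?_ (Real.exp_le_exp.2 (by linarith)) (Real.exp_pos _).le (by positivity)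
    exact (inv_le_one_of_one_le₀ (one_le_pow₀ one_le_two)).trans (one_le_pow₀ one_le_two)

variable {β D : Type} [MeasurableSpace β] [MeasurableSpace D]

lemma measW_pertW {w : D → Cube N → (Fin r → β) → ℝ} (hw : MeasW w) (s : ℝ) {L : ℕ}
    (x : Fin L → ℝ) : MeasW (pertW w s x) := fun σ => by
  refine Measurable.mul ?_ ?_
  · exact Measurable.comp (g := fun q : D × (Fin r → β) => w q.1 σ q.2) (hw σ)
      ((measurable_fst.comp measurable_fst).prodMk measurable_snd)
  · exact ((Main.measurable_pertH (s := s) σ).comp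
      (measurable_const.prodMk (measurable_snd.comp measurable_fst))).exp

lemma measW_pertW_param {w : D → Cube N → (Fin r → β) → ℝ} (hw : MeasW w) (s : ℝ) {L : ℕ} :
    MeasW fun z : (Fin L → ℝ) × (D × (PertIdx N L → ℝ)) => pertW w s z.1 z.2 := fun σ => by
  refine Measurable.mul ?_ ?_
  · exact Measurable.comp (g := fun q : D × (Fin r → β) => w q.1 σ q.2) (hw σ)
      (((measurable_fst.comp measurable_snd).comp measurable_fst).prodMk measurable_snd)
  · exact ((Main.measurable_pertH (s := s) σ).comp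
      ((measurable_fst.comp measurable_fst).prodMk
        ((measurable_snd.comp measurable_snd).comp measurable_fst))).exp

lemma wbdd_pertW {C : ℝ} {w : D → Cube N → (Fin r → β) → ℝ} (hw : ∀ d, WBdd C (w d))
    (s : ℝ) {L : ℕ} (x : Fin L → ℝ) (e : D × (PertIdx N L → ℝ)) :
    WBdd (C * Real.exp (∑ σ : Cube N, |pertH s x e.2 σ|)) (pertW w s x e) := fun σ => by
  have hb : |pertH s x e.2 σ| ≤ ∑ τ : Cube N, |pertH s x e.2 τ| :=
    Finset.single_le_sum (f := fun τ => |pertH s x e.2 τ|) (fun τ _ => abs_nonneg _)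
      (Finset.mem_univ σ)
  refine ⟨mul_pos ((hw e.1) σ).pos (Real.exp_pos _), ((hw e.1) σ).meas.mul_const _,
    fun η => ⟨?_, ?_⟩⟩
  · rw [mul_inv, ← Real.exp_neg]
    exact mul_le_mul (((hw e.1) σ).mem η).1 (Real.exp_le_exp.2 (by linarith [(abs_le.1 hb).1]))
      (Real.exp_pos _).le (((hw e.1) σ).gt_zero η).le
  · exact mul_le_mul (((hw e.1) σ).mem η).2 (Real.exp_le_exp.2 (by linarith [(abs_le.1 hb).2]))
      (Real.exp_pos _).le ((hw e.1) σ).pos.le

lemma measurable_patInc (hs : Smooth f A) (ν : Measure β) [IsProbabilityMeasure ν] (m : Fin r → ℝ)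
    {W : D → Cube N → (Fin r → β) → ℝ} (hW : MeasW W) :
    Measurable fun d => patInc ν m f (W d) :=
  (((measurable_Phi ν m (measW_patU hs hW)).sub
    ((measurable_Phi ν m hW).comp measurable_fst)).stronglyMeasurable.integral_prod_right'
      (ν := gam (Fin N))).measurable

lemma logMean_bound (hs : Smooth f A) {S : State N} (hS : S.IsGood) :
    |S.logMean f 1| ≤ A := by
  have := hS.prob
  rw [← Real.norm_eq_abs, State.logMean]
  refine (norm_integral_le_of_norm_le_const (μ := S.law) (C := A) (Eventually.of_forall fun ω => ?_)).trans_eq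
    (by rw [probReal_univ, mul_one])
  refine (norm_integral_le_of_norm_le_const (μ := Measure.pi fun _ : Fin 1 => gam (Fin N)) (C := A)
    (Eventually.of_forall fun g => ?_)).trans_eq
    (by simp)
  rw [Real.norm_eq_abs]
  refine abs_log_sum_exp_le (hS.nonneg ω) (hS.sum_one ω) fun σ => ?_
  simpa using hs.b0 (dot (g 0) (unitVec σ))

lemma abs_patInc_le (hD : CascStateStmt) (hs : Smooth f A) (hN : 0 < N) {m : Fin r → ℝ}
    (hm : Exps m) (ν : Measure β) [IsProbabilityMeasure ν] {C : ℝ}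
    {w : Cube N → (Fin r → β) → ℝ} (hw : WBdd C w) : |patInc ν m f w| ≤ A := by
  obtain ⟨S, hS, -, hlog⟩ := hD N hN r m hm β ν Unit (Measure.dirac ()) (fun _ => w)
    (fun σ => (hw σ).meas.comp measurable_snd) fun _ => ⟨C, hw⟩
  have := logMean_bound hs hS
  rw [hlog f A hs] at this
  simpa using this

end Vale.Agent.P166.NW.Gain
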