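import Vale.Agent.P166.NW.Base
import Vale.Agent.P166.NW.State
import Vale.Agent.P166.NW.Quad.Refine

/-! The overlap pairing of cascade weights is below that of the coupled overlap law. -/

noncomputable section

open MeasureTheory ProbabilityTheory Finset
open scoped BigOperators

namespace Vale.Agent.P166.NW.Gain

open Vale.Agent.P157 Vale.Agent.P157.Parisi Vale.Agent.P157.Parisi.Up
open Vale.Agent.P168.Cascade (Exps Bdd tiltMoment integrand abs_integrand_le measurable_integrand
  tableLaw shapeMarks_congr)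
open Vale.Agent.P168 (shapeMarks)

variable {r N : ℕ} {β : Type} [MeasurableSpace β] (ν : Measure β) [IsProbabilityMeasure ν]
  {m : Fin r → ℝ} {C : ℝ} {w : Cube N → (Fin r → β) → ℝ}

lemma pairM_nonneg {Y g h : (Fin r → β) → ℝ} (hg : ∀ η, 0 ≤ g η) (hh : ∀ η, 0 ≤ h η)
    (p : Fin (r + 1)) : 0 ≤ pairM ν m Y g h p := by
  refine integral_nonneg fun ω => ?_
  simp only [integrand, Fin.prod_univ_two, Matrix.cons_val_zero, Matrix.cons_val_one]
  exact mul_nonneg (Real.exp_pos _).le (mul_nonneg (hg _) (hh _))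

/-- Bilinearity of the pair moment. -/
lemma pairM_sum (hm : Exps m) {Y : (Fin r → β) → ℝ} {K : ℝ} (hY : Bdd K Y)
    (hw : WBdd C w) (a b : Cube N → ℝ) (p : Fin (r + 1)) :
    pairM ν m Y (fun η => ∑ σ, w σ η * a σ) (fun η => ∑ σ, w σ η * b σ) p =
      ∑ σ, ∑ τ, a σ * b τ * pairM ν m Y (w σ) (w τ) p := by
  have hi : ∀ σ τ, Integrable (fun ω => integrand ν m Y ![w σ, w τ] (sh p) ω)
      (tableLaw ν r 2) := by
    intro σ τ
    refine Integrable.of_bound (Measurable.aestronglyMeasurable ?_)
      (Real.exp ((2 * r + 1) * (2 : ℕ) * |Real.log K|) * (C * C)) (ae_of_all _ fun ω => ?_)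
    · exact measurable_integrand ν m hY.meas
        (fun a => by fin_cases a <;> first | exact (hw σ).meas | exact (hw τ).meas) _
    · simp only [integrand, Fin.prod_univ_two, Matrix.cons_val_zero, Matrix.cons_val_one,
        Real.norm_eq_abs, abs_mul, abs_of_pos (Real.exp_pos _), abs_of_pos ((hw σ).gt_zero _),
        abs_of_pos ((hw τ).gt_zero _)]
      exact mul_le_mul (Real.exp_le_exp.2 ((le_abs_self _).trans
          (Vale.Agent.P168.Cascade.abs_logW_le ν hm hY _ ω)))
        (mul_le_mul ((hw σ).mem _).2 ((hw τ).mem _).2 ((hw τ).gt_zero _).le (hw σ).pos.le)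
        (mul_nonneg ((hw σ).gt_zero _).le ((hw τ).gt_zero _).le) (Real.exp_pos _).le
  have e : ∀ ω, integrand ν m Y ![fun η => ∑ σ, w σ η * a σ, fun η => ∑ σ, w σ η * b σ] (sh p) ω =
      ∑ σ, ∑ τ, a σ * b τ * integrand ν m Y ![w σ, w τ] (sh p) ω := fun ω => by
    simp only [integrand, Fin.prod_univ_two, Matrix.cons_val_zero, Matrix.cons_val_one,
      Finset.mul_sum, Finset.sum_mul]
    rw [Finset.sum_comm]
    exact Finset.sum_congr rfl fun σ _ => Finset.sum_congr rfl fun τ _ => by ring
  simp only [pairM, e]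
  rw [integral_finsetSum _ fun σ _ => integrable_finsetSum _ fun τ _ => (hi σ τ).const_mul _]
  refine Finset.sum_congr rfl fun σ _ => ?_
  rw [integral_finsetSum _ fun τ _ => (hi σ τ).const_mul _]
  exact Finset.sum_congr rfl fun τ _ => integral_const_mul _ _

/-- The law of two replicas meeting at depth `p`. -/
def pairP (ν : Measure β) (m : Fin r → ℝ) (w : Cube N → (Fin r → β) → ℝ) (p : Fin (r + 1))
    (σ τ : Cube N) : ℝ :=
  pairM ν m (sumW w) (w σ) (w τ) p

lemma sum_pairP (hm : Exps m) (hw : WBdd C w) (p : Fin (r + 1)) :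
    ∑ σ, ∑ τ, pairP ν m w p σ τ = 1 := by
  have h := pairM_sum ν hm (bdd_sum hw) hw (fun _ => 1) (fun _ => 1) p
  simp only [mul_one, one_mul] at h
  rw [← pairM_self ν hm (bdd_sum hw) p]
  exact h.symm

lemma bVal_eq (hm : Exps m) (hw : WBdd C w) (p : Fin (r + 1)) :
    bVal ν m w p = ∑ σ, ∑ τ, overlap σ τ * pairP ν m w p σ τ := by
  have e : ∀ i, pairM ν m (fun η => ∑ σ, w σ η) (mag w i) (mag w i) p =
      ∑ σ, ∑ τ, sv σ i * sv τ i * pairP ν m w p σ τ := fun i =>
    pairM_sum ν hm (bdd_sum hw) hw (fun σ => sv σ i) (fun σ => sv σ i) p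
  simp only [bVal, e, Vale.Agent.P157.Parisi.overlap, Finset.mul_sum]
  rw [Finset.sum_comm]
  refine Finset.sum_congr rfl fun σ _ => ?_
  rw [Finset.sum_comm]
  refine Finset.sum_congr rfl fun τ _ => ?_
  simp only [Finset.sum_div, Finset.sum_mul]
  exact Finset.sum_congr rfl fun i _ => by ring

lemma nRep_two (F : Cube N → Cube N → ℝ) :
    nRep ν m w 2 (fun σ => F (σ 0) (σ 1)) =
      ∑ p : Fin (r + 1), weight m p * ∑ σ, ∑ τ, F σ τ * pairP ν m w p σ τ := by
  simp only [nRep]
  rw [← (piFinTwoEquiv fun _ : Fin 2 => Cube N).symm.sum_comp, Fintype.sum_prod_type]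
  have e : ∀ σ τ : Cube N,
      (fun l => w ((piFinTwoEquiv fun _ : Fin 2 => Cube N).symm (σ, τ) l)) = ![w σ, w τ] := by
    intro σ τ
    funext l
    fin_cases l <;> simp
  simp only [e, tiltMoment_two ν m (sumW w)]
  have h0 : ∀ σ τ : Cube N, (piFinTwoEquiv fun _ : Fin 2 => Cube N).symm (σ, τ) 0 = σ ∧
      (piFinTwoEquiv fun _ : Fin 2 => Cube N).symm (σ, τ) 1 = τ := fun σ τ => by simp
  simp only [(h0 _ _).1, (h0 _ _).2, Finset.mul_sum, pairP]
  conv_rhs => rw [Finset.sum_comm]
  refine Finset.sum_congr rfl fun σ _ => ?_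
  conv_rhs => rw [Finset.sum_comm]
  exact Finset.sum_congr rfl fun τ _ => Finset.sum_congr rfl fun p _ => by ring

/-- The part of a sum of weights below a depth. -/
lemma weight_tail (hm : Exps m) (i : Fin r) :
    ∑ p : Fin (r + 1), weight m p * (if i.val < p.val then 1 else 0) = 1 - m i := by
  rw [sum_weight_mul hm]
  have hg : ∀ j : Fin r, m j * gap (fun p : Fin (r + 1) => if i.val < p.val then (1 : ℝ) else 0) j =
      if j = i then m i else 0 := fun j => by
    rcases lt_trichotomy i.val j.val with h | h | h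
    · have : i.val < j.val + 1 := by omega
      simp [gap, h, this, (show j ≠ i from fun e => h.ne (congrArg Fin.val e).symm)]
    · obtain rfl : i = j := Fin.ext h
      simp [gap]
    · have h1 : ¬ i.val < j.val := by omega
      have h2 : ¬ i.val < j.val + 1 := by omega
      simp [gap, h1, h2, (show j ≠ i from fun e => h.ne (congrArg Fin.val e))]
  simp [hg]

/-- The pairing with a monotone path is at most that of any coupling. -/
lemma fieldPair_le (hm : Exps m) (hw : WBdd C w) {s : Fin (r + 1) → ℝ} (hs : Monotone s)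
    (c : Fin r → ℝ) :
    fieldPair ν m s w ≤ s 0 * nRep ν m w 2 (fun σ => overlap (σ 0) (σ 1)) +
      ∑ i : Fin r, gap s i *
        (c i * (1 - m i) + nRep ν m w 2 (fun σ => max (overlap (σ 0) (σ 1) - c i) 0)) := by
  have hsd : ∀ p : Fin (r + 1), s p = s 0 + ∑ i : Fin r, gap s i * if i.val < p.val then 1 else 0 := by
    intro p
    induction p using Fin.induction with
    | zero => simp
    | succ i ih =>
      have : s i.succ = s i.castSucc + gap s i := by simp [gap]
      rw [this, ih, add_assoc]
      congr 1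
      rw [← Fintype.sum_ite_eq' i (gap s), ← Finset.sum_add_distrib]
      refine Finset.sum_congr rfl fun j _ => ?_
      rcases lt_trichotomy j.val i.val with h | h | h
      · simp [h, (show j.val < i.val + 1 by omega),
          (show j ≠ i from fun e => h.ne (congrArg Fin.val e))]
      · obtain rfl : j = i := Fin.ext h
        simp
      · simp [(show ¬ j.val < i.val by omega), (show ¬ j.val < i.val + 1 by omega),
          (show j ≠ i from fun e => h.ne (congrArg Fin.val e).symm)]
  set b := fun p => bVal ν m w p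
  have hexp : fieldPair ν m s w = s 0 * (∑ p : Fin (r + 1), weight m p * b p) +
      ∑ i : Fin r, gap s i *
        ∑ p : Fin (r + 1), weight m p * ((if i.val < p.val then 1 else 0) * b p) := by
    simp only [fieldPair]
    rw [Finset.mul_sum]
    simp only [Finset.mul_sum]
    rw [Finset.sum_comm, ← Finset.sum_add_distrib]
    refine Finset.sum_congr rfl fun p _ => ?_
    rw [hsd p, add_mul, mul_add, Finset.sum_mul, Finset.mul_sum]
    congr 1
    · ring
    · exact Finset.sum_congr rfl fun i _ => by ring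
  rw [hexp, nRep_two ν overlap]
  refine add_le_add (le_of_eq ?_) (Finset.sum_le_sum fun i _ =>
    mul_le_mul_of_nonneg_left ?_ (sub_nonneg.2 (hs (Fin.castSucc_le_succ i))))
  · simp only [b, bVal_eq ν hm hw]
  · rw [nRep_two ν (fun σ τ => max (overlap σ τ - c i) 0), ← weight_tail hm i, Finset.mul_sum,
      ← Finset.sum_add_distrib]
    refine Finset.sum_le_sum fun p _ => ?_
    set P := ∑ σ, ∑ τ, max (overlap σ τ - c i) 0 * pairP ν m w p σ τ
    have hP : 0 ≤ P := Finset.sum_nonneg fun σ _ => Finset.sum_nonneg fun τ _ =>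
      mul_nonneg (le_max_right _ _) (pairM_nonneg ν (fun η => ((hw σ).gt_zero η).le)
        (fun η => ((hw τ).gt_zero η).le) p)
    have hw0 := weight_nonneg hm p
    split_ifs
    · have hb : b p ≤ c i + P := by
        have h1 : c i = ∑ σ, ∑ τ, c i * pairP ν m w p σ τ := by
          simp only [← Finset.mul_sum, sum_pairP ν hm hw p, mul_one]
        simp only [b, bVal_eq ν hm hw]
        rw [h1, ← Finset.sum_add_distrib]
        refine Finset.sum_le_sum fun σ _ => ?_
        rw [← Finset.sum_add_distrib]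
        refine Finset.sum_le_sum fun τ _ => ?_
        rw [← add_mul]
        exact mul_le_mul_of_nonneg_right (by linarith [le_max_left (overlap σ τ - c i) 0])
          (pairM_nonneg ν (fun η => ((hw σ).gt_zero η).le) (fun η => ((hw τ).gt_zero η).le) p)
      nlinarith [mul_le_mul_of_nonneg_left hb hw0]
    · nlinarith [mul_nonneg hw0 hP]

variable {D : Type} [MeasurableSpace D]

lemma measurable_sumW {W : D → Cube N → (Fin r → β) → ℝ} (hW : MeasW W) :
    Measurable (Function.uncurry fun d => sumW (W d)) :=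
  Finset.measurable_sum (f := fun σ (z : D × (Fin r → β)) => W z.1 σ z.2) _ fun σ _ => hW σ

lemma measurable_nRep {W : D → Cube N → (Fin r → β) → ℝ} (hW : MeasW W) (n : ℕ)
    (F : (Fin n → Cube N) → ℝ) : Measurable fun d => nRep ν m (W d) n F := by
  refine Finset.measurable_sum _ fun σ _ => Measurable.const_mul ?_ _
  exact measurable_tiltMoment ν m (measurable_sumW hW) fun l => hW (σ l)

lemma measurable_fieldPair {W : D → Cube N → (Fin r → β) → ℝ} (hW : MeasW W)
    (s : Fin (r + 1) → ℝ) : Measurable fun d => fieldPair ν m s (W d) := by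
  refine Finset.measurable_sum _ fun p _ => Measurable.const_mul (Measurable.const_mul ?_ _) _
  refine Measurable.const_mul (Finset.measurable_sum _ fun i _ => ?_) _
  have hmag : Measurable (Function.uncurry fun d => mag (W d) i) :=
    Finset.measurable_sum (f := fun σ (z : D × (Fin r → β)) => W z.1 σ z.2 * sv σ i) _
      fun σ _ => (hW σ).mul_const _
  exact measurable_pairM ν m (measurable_sumW hW) hmag hmag p

lemma abs_nRep_two_le (hm : Exps m) (hw : WBdd C w) (F : Cube N → Cube N → ℝ) {B : ℝ}
    (hF : ∀ σ τ, |F σ τ| ≤ B) : |nRep ν m w 2 (fun σ => F (σ 0) (σ 1))| ≤ B := by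
  rw [nRep_two]
  calc |∑ p, weight m p * ∑ σ, ∑ τ, F σ τ * pairP ν m w p σ τ|
      ≤ ∑ p, weight m p * B := by
        refine (Finset.abs_sum_le_sum_abs _ _).trans (Finset.sum_le_sum fun p _ => ?_)
        rw [abs_mul, abs_of_nonneg (weight_nonneg hm p)]
        refine mul_le_mul_of_nonneg_left ?_ (weight_nonneg hm p)
        calc |∑ σ, ∑ τ, F σ τ * pairP ν m w p σ τ| ≤ ∑ σ, |∑ τ, F σ τ * pairP ν m w p σ τ| :=
              Finset.abs_sum_le_sum_abs _ _
          _ ≤ ∑ σ, ∑ τ, B * pairP ν m w p σ τ := Finset.sum_le_sum fun σ _ =>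
              (Finset.abs_sum_le_sum_abs _ _).trans (Finset.sum_le_sum fun τ _ => by
                have := pairM_nonneg ν (m := m) (Y := sumW w) (fun η => ((hw σ).gt_zero η).le)
                  (fun η => ((hw τ).gt_zero η).le) p
                rw [abs_mul, show |pairP ν m w p σ τ| = pairP ν m w p σ τ from abs_of_nonneg this]
                exact mul_le_mul_of_nonneg_right (hF σ τ) this)
          _ = B := by simp only [← Finset.mul_sum, sum_pairP ν hm hw p, mul_one]
    _ = B := by rw [← Finset.sum_mul, sum_weight, one_mul]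

end Vale.Agent.P166.NW.Gain
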